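import Vale.Agent.P269.G1.H310.Euler
import Vale.Agent.P269.G1.Oper

set_option autoImplicit false

/-!
# [c6] the derivative of the genus-one potential
-/

namespace Vale.Agent.P269.G1.H310

open Finset.HasAntidiagonal (antidiagonal)
open Vale.Agent.P269.CI Vale.Agent.P269.G1 Vale.Agent.P269.G1.H598

variable {X : CompleteIntersection} {F : ℕ → ℕ → List (Ins X) → ℂ}

variable (hF : IsGW X F) (h1 : IsGenusOne F)

theorem der_sum_mul (x y : AA hF h1) (S : Fin (X.dim + 1) → RR X) :
    der hF h1 x (∑ b, y b * S b) - ∑ b, (nab hF h1 x y) b * S b =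
      ∑ a, ∑ b, x a * y b * MvPowerSeries.pderiv (PowerSeries ℂ) a (S b) := by
  unfold der nab der
  have h2 : ∀ a, MvPowerSeries.pderiv (PowerSeries ℂ) a (∑ b, y b * S b) =
      ∑ b, (MvPowerSeries.pderiv (PowerSeries ℂ) a (y b) * S b +
        y b * MvPowerSeries.pderiv (PowerSeries ℂ) a (S b)) := by
    intro a
    rw [map_sum]
    refine Finset.sum_congr rfl fun b _ => ?_
    rw [Derivation.leibniz, smul_eq_mul, smul_eq_mul]
    ring
  simp only [h2]
  have h3 : ∑ b, (∑ i, x i * MvPowerSeries.pderiv (PowerSeries ℂ) i (y b)) * S b =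
      ∑ a, x a * ∑ b, MvPowerSeries.pderiv (PowerSeries ℂ) a (y b) * S b := by
    simp only [Finset.sum_mul, Finset.mul_sum]
    rw [Finset.sum_comm]
    refine Finset.sum_congr rfl fun a _ => Finset.sum_congr rfl fun b _ => ?_
    ring
  rw [h3, ← Finset.sum_sub_distrib]
  refine Finset.sum_congr rfl fun a _ => ?_
  rw [Finset.sum_add_distrib, mul_add, add_sub_cancel_left, Finset.mul_sum]
  refine Finset.sum_congr rfl fun b _ => ?_
  ring

theorem GG_apply (y : AA hF h1) : GG hF h1 y = ∑ b, y b * ser (cor F 1 [hpow X b]) := rfl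

theorem cor_swap {F : ℕ → ℕ → List (Ins X) → ℂ} (hF : IsGW X F) (g : ℕ) (a b : Fin (X.dim + 1)) (P : List (Ins X)) :
    cor F g (hpow X a :: hpow X b :: P) = cor F g (hpow X b :: hpow X a :: P) := by
  funext d L
  have h := hF.symm g d [] (P ++ L) (hpow X a) (hpow X b)
  have h2 : sgn (par X (hpow X a).1) (par X (hpow X b).1) = 1 := sgn_false _
  rw [h2, one_mul] at h
  exact h

/-- **[c6]** -/
theorem G_symm (x y : AA hF h1) : der hF h1 x (GG hF h1 y) - GG hF h1 (nab hF h1 x y) =
    der hF h1 y (GG hF h1 x) - GG hF h1 (nab hF h1 y x) := by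
  rw [GG_apply, GG_apply, GG_apply, GG_apply, der_sum_mul, der_sum_mul, Finset.sum_comm]
  refine Finset.sum_congr rfl fun a _ => Finset.sum_congr rfl fun b _ => ?_
  rw [pderiv_cor hF, pderiv_cor hF, cor_swap hF 1 b a]
  ring

/-- **[c6]** string equation -/
theorem G_one : GG hF h1 1 = 0 := by
  rw [GG_apply, Finset.sum_eq_single (0 : Fin (X.dim + 1))]
  · change (if (0 : Fin (X.dim + 1)) = 0 then (1 : RR X) else 0) * _ = 0
    rw [if_pos rfl, one_mul]
    have h : ser (cor F 1 [hpow X 0]) = ser (X := X) (fun _ _ => 0) := by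
      refine ser_congr fun d L => ?_
      change F 1 d ((one X, 0) :: L.map (hpow X)) = 0
      rw [hF.string, lowerSum_nodesc _ _ _ (hpow_nodesc L)]
      simp
    rw [h]
    ext α : 1
    rw [ser, coeff_toSer]
    have : (PowerSeries.mk fun _ => (0 : ℂ)) = 0 := by
      ext; simp
    rw [this, smul_zero]
    simp
  · intro b _ hb
    change (if b = 0 then (1 : RR X) else 0) * _ = 0
    rw [if_neg hb, zero_mul]
  · simp

/-- **[c6]** grading and divisor equation -/
theorem G_E : GG hF h1 (Eu hF h1) =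
    cst X (-(index X : ℂ) / 24 * (deg X * chernCoeff X (X.dim - 1))) := by
  have h2 : GG hF h1 (Eu hF h1) = eul X (ser (cor F 1 [])) := by
    rw [GG_apply, eul]
    refine Finset.sum_congr rfl fun k _ => ?_
    rw [pderiv_cor hF]
    rfl
  rw [h2, eul_cor hF 1 [] (by simp)]
  ext α : 1
  rw [ser, coeff_toSer, cst, MvPowerSeries.coeff_C]
  by_cases hα : α = 0
  · subst hα
    rw [lst_zero, if_pos rfl]
    simp only [Finsupp.coe_zero, Pi.zero_apply, Nat.factorial_zero, Finset.prod_const_one,
      Nat.cast_one, inv_one, one_smul, List.map_nil, List.append_nil]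
    ext d
    rw [PowerSeries.coeff_mk, PowerSeries.coeff_C]
    by_cases hd : d = 0
    · subst hd
      simp [cls, emptyTerm, wt]
      ring
    · rw [if_neg hd]
      simp [cls, wt, hd]
  · rw [if_neg hα]
    have hne : lst α ≠ [] := by
      intro h
      apply hα
      ext j
      rw [← count_lst, h]
      simp
    have h3 : (PowerSeries.mk fun d => -((1 - ((1 : ℕ) : ℂ)) * ((X.dim : ℂ) - 3) + wt X []) *
        cor F 1 [] d ((lst α).map (hpow X)) +
        (index X : ℂ) * cls X 1 d ([] ++ (lst α).map (hpow X))) = 0 := by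
      ext d
      obtain ⟨j, L, hL⟩ := List.exists_cons_of_ne_nil hne
      rw [hL]
      simp [cls, wt, emptyTerm]
    rw [h3, smul_zero]

end Vale.Agent.P269.G1.H310
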